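import Crest.Agent.X212.Rtw9.Lf
import Crest.Agent.X212.End23.Frq_Mg
import Crest.Agent.X212.Sw88.RadA

/-!
# Row 212, RAD-TW (helper9): solutions with high outgoing level are bounded
-/

set_option autoImplicit false
set_option linter.unusedSectionVars false
noncomputable section
open scoped Manifold ContDiff Topology InnerProductSpace
open MeasureTheory Set Function Filter

namespace Crest.Agent.X212.Rtw9
open An Cyf70 Sw Sw.En3 Sob92 End23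
open Nd18 (Jv ct Dp tf fl)
open M (Mf pm)
open Flo2 (Mk Gr Ty End Ev Lv Gc Plc rt bm)
open Sw88 (mem_deep nm_nonneg)
open Lvo97

variable {κ lam ν : Type} [Fintype κ] [Fintype lam] [Fintype ν] [DecidableEq ν]

theorem fl_mem {s : ℝ} (h : 0 ≤ s) : fl s ∈ Icc (0 : ℝ) 1 :=
  ⟨mul_nonneg h (sub_nonneg.2 (Real.smoothTransition.le_one _)), (le_total s 1).elim
    (fun k => mul_le_one₀ k (sub_nonneg.2 (Real.smoothTransition.le_one _))
      (sub_le_self _ (Real.smoothTransition.nonneg _))) fun k => (Nd18.fl_ge k).trans_le zero_le_one⟩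

theorem abs_tf {p q : Option ℝ} {s : ℝ} (h : s ∈ Jv p q) : |tf p q s - s| ≤ 1 := by
  have h1 : (p.elim 0 fun a => fl (s - a)) ∈ Icc (0 : ℝ) 1 := by
    cases p
    exacts [by simp, fl_mem (sub_pos.2 (h.1 _ rfl)).le]
  have h2 : (q.elim 0 fun a => fl (a - s)) ∈ Icc (0 : ℝ) 1 := by
    cases q
    exacts [by simp, fl_mem (sub_pos.2 (h.2 _ rfl)).le]
  rw [tf, abs_le]
  constructor <;> linarith [h1.1, h1.2, h2.1, h2.2]

section core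
variable {X : Mf 4} {nc : ℕ} {A : Sw.Cfg X.M κ ν}

theorem win {e : En3 κ lam ν} {b : Bg X.I X.M κ lam ν nc} (K : Nk e b) (hA : Continuous A.Φ)
    {J : Set ℝ} (hJ : IsOpen J) {B : ℝ} (h0 : 0 ≤ B)
    (hB : ∀ t ∈ K.deep (1 / 4) ∩ J, nm (sl (K.pb A) t) ≤ B) (r : ℝ) :
    ∫⁻ x in {x | K.tm x ∈ K.deep (1 / 4) ∩ J ∧ |K.τ x - r| ≤ 2}, ‖A.Φ x‖ₑ ^ 2 ∂b.F.μ ≤
      ENNReal.ofReal (B * 8) := by
  have sub : K.deep (1 / 4) ∩ J ∩ Ioo (r - 4) (r + 4) ⊆ K.J := fun _ k => deep_J (by norm_num) k.1.1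
  refine (lintegral_mono_set fun x k => (Cut71.mem_img K sub).2 ⟨k.1, ?_⟩).trans
    ((lint_nm K hA ((Nd18.isOpen_Jv.inter hJ).inter isOpen_Ioo) sub fun t k => hB t k.1).trans ?_)
  · have h1 := abs_le.1 (abs_tf (deep_J (by norm_num) k.1.1))
    have h2 := abs_le.1 k.2
    constructor <;> linarith [show K.τ x = tf K.p K.q (K.tm x) from rfl]
  · rw [ENNReal.ofReal_mul h0]
    gcongr
    refine (measure_mono inter_subset_right).trans_eq ?_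
    rw [Real.volume_Ioo]
    congr 1; ring

variable {N : Type} [Fintype N] {e : N → En3 κ lam ν} {P : Pz X nc e} {i j : N} {K : Nk (e i) P.bg}
  {K' : Nk (e j) P.bg} {a b c M₀ M₁ M₂ M₃ Λ₁ Λ₂ : ℝ}

theorem core (hT : TopStmt κ lam ν) (hP : P.OK) (ad : P.bg.Adm A) (hK : K ∈ P.nk i)
    (hK' : K' ∈ P.nk j) (hp : K.p = none) (hq : K.q = some b) (hp' : K'.p = some a)
    (hq' : K'.q = none) (oth : ∀ k, ¬P.Off k → k = i ∨ k = j) (h0 : 1 ≤ M₀) (h1 : M₀ ≤ M₁)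
    (h2 : M₀ ≤ M₂) (h3 : 1 ≤ M₃) (h4 : 1 ≤ Λ₂)
    (up : ∀ k, ∀ K ∈ P.nk k, ∀ s ∈ K.deep (1 / 4), Fw M₀ (K.pb A) (K.deep (1 / 4) ∩ Ici s) ∨
      Up M₀ (K.pb A) (K.deep (1 / 4) ∩ Iic s))
    (out : ∀ T, ∃ s ∈ K'.deep (1 / 4), T ≤ s ∧ Bw K'.p K'.q M₀ c (K'.pb A) (K'.deep (1 / 4) ∩ Iic s) ∧
      ∃ β > M₁, fq β (sl (K'.pb A) s) ≤ nm (sl (K'.pb A) s))
    (inn : ∀ T, ∃ s ∈ K.deep (1 / 4), s ≤ T ∧ Fw M₂ (K.pb A) (K.deep (1 / 4) ∩ Ici s) ∧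
      nm (sl (K.pb A) s) ≤ 1)
    (uc : ∀ σ, ((∀ k, Adj P σ k → Gw P M₀ A k (σ k)) → ∀ k, Adj P σ k →
      Gs P Λ₁ (ms P σ A.Φ) A k (σ k)) ∧ ((∀ k, Adj P σ k → Gw P M₂ A k (σ k)) → ∀ k, Adj P σ k →
      Gs P Λ₂ (ms P σ A.Φ) A k (σ k)))
    (n1 : ∀ s ∈ K'.deep (1 / 4), fq 0 (sl (K'.pb A) s) ≤ Λ₁ * nm (sl (K'.pb A) s) →
      Fw M₁ (K'.pb A) (K'.deep (1 / 4) ∩ Ici s))
    (n2 : ∀ s ∈ K.deep (1 / 4), fq 0 (sl (K.pb A) s) ≤ Λ₂ * nm (sl (K.pb A) s) →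
      Bw K.p K.q M₃ c (K.pb A) (K.deep (1 / 4) ∩ Iic s)) (x₀ : X.M) :
    ∫⁻ x in Wn P x₀, ‖A.Φ x‖ₑ ^ 2 ∂P.bg.F.μ ≤ ENNReal.ofReal (Λ₂ * (M₃ * M₀) + M₃ * M₀ * 8 +
      M₀ * max (Λ₂ * (Λ₂ * (M₃ * M₀))) 1 * 8) := by
  have cA := ad.sΦ.continuous
  have nf : ∀ s, ¬Fw M₁ (K'.pb A) (K'.deep (1 / 4) ∩ Ici s) := fun s f =>
    let ⟨t, k1, k2, _, β, k3, k4⟩ := out s
    k3.not_ge (f.fr t ⟨k1, k2⟩ β (by linarith) k4)
  have oi : ¬P.Off i := fun k => let ⟨_, k, _⟩ := k K hK; by simp [hp] at k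
  have oj : ¬P.Off j := fun k => let ⟨_, _, k⟩ := k K' hK'; by simp [hq'] at k
  have f : ¬K.Inf true := by simp [Nk.Inf, hq]
  have f' : ¬K'.Inf false := by simp [Nk.Inf, hp']
  have fi : ¬P.Inf i true := fun ⟨_, k, z⟩ => by cases hK.symm.trans k; exact f z
  have fj : ¬P.Inf j false := fun ⟨_, k, z⟩ => by cases hK'.symm.trans k; exact f' z
  obtain ⟨x, hx⟩ := vt_ne' hP oi fi
  obtain ⟨x', hx'⟩ := vt_ne' hP oj fj
  have ai := adj_vt hP oi fi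
  have σi : vt P i true i = true := vt_self
  generalize vt P i true = σ at hx ai σi
  have σj : σ j = false := Bool.eq_false_iff.2 fun k =>
    sd_fin (s := true) (k ▸ hx j oj K' hK') hq'
  have aj : Adj P σ j := ⟨oj, fun K₁ k => by
    have := (adj_vt hP oj fj).2 K₁ k
    rwa [vt_self, ← vx_eq hx hx' fun k z => by
      rcases oth k z.1 with rfl | rfl
      exacts [(z.2 K hK false hp).elim, (z.2 K' hK' true hq').elim], ← σj] at this⟩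
  have all : ∀ m, M₀ ≤ m → Gw P m A i true → ∀ k, Adj P σ k → Gw P m A k (σ k) := fun m z g k y => by
    rcases oth k y.1 with rfl | rfl
    · exact σi ▸ g
    · obtain ⟨s, -, k1, k2, -⟩ := out (a + 3 / 4)
      exact σj ▸ (gw_f hK' hp' k1 k2).mono z
  have d : ∀ t, t ∈ K.deep (1 / 4) ↔ t < b - 1 / 4 := fun t => by simp [mem_deep, hp, hq]
  have d' : ∀ t, t ∈ K'.deep (1 / 4) ↔ a + 1 / 4 < t := fun t => by simp [mem_deep, hp', hq']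
  have s0 := (d (b - 3 / 4)).2 (by linarith)
  have u0 := (up i K hK _ s0).resolve_left fun z => by
    obtain ⟨t, k1, k2, -⟩ := (uc σ).1 (all _ le_rfl (gw_t hK hq le_rfl z)) j aj K' hK'
    rw [σj, col_f hp'] at k1
    exact nf t (n1 t ((d' t).2 (by linarith)) k2)
  have b0 : ∀ t ≤ b - 3 / 4, nm (sl (K.pb A) t) ≤ M₀ := fun t z => by
    obtain ⟨s, k1, k2, -, k3⟩ := inn t
    simpa [k3] using u0 s ⟨k1, k2.trans z⟩ t ⟨(d t).2 (by linarith), z⟩ k2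
  obtain ⟨s, -, k1, k2, -⟩ := inn (b - 3 / 4)
  have g2 := (uc σ).2 (all _ h2 (gw_t hK hq k1 k2))
  obtain ⟨u, u1, u2, u3, -⟩ := g2 i ai K hK
  obtain ⟨v, v1, -, -, v3⟩ := g2 j aj K' hK'
  rw [σi, col_t hq] at u1
  rw [σj, col_f hp'] at v1
  have b1 : ∀ t ≤ u, nm (sl (K.pb A) t) ≤ M₃ * M₀ := fun t z => by
    rcases le_total t (b - 3 / 4) with y | y
    · exact (b0 t y).trans (le_mul_of_one_le_left (by linarith) h3)
    · exact ((n2 u ((d u).2 (by linarith)) u2).sh _ ⟨s0, y.trans z⟩ t ⟨(d t).2 (by linarith), z⟩ y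
        (by linarith) fun r m => Nd18.ct_zero fun k => by linarith [k.2 b hq, m.1]).trans
          (mul_le_mul_of_nonneg_left (b0 _ le_rfl) (by linarith))
  have b2 := u3.trans (mul_le_mul_of_nonneg_left (b1 u le_rfl) (by linarith))
  have b3 : ∀ t ∈ K'.deep (1 / 4) ∩ Ioi v, nm (sl (K'.pb A) t) ≤
      M₀ * max (Λ₂ * (Λ₂ * (M₃ * M₀))) 1 := fun t z =>
    have l : v ≤ t := le_of_lt z.2
    ((up j K' hK' t z.1).resolve_left (fun y => nf t (y.mono h1)) v ⟨(d' v).2 (by linarith), l⟩ t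
      ⟨z.1, le_refl t⟩ l).trans (mul_le_mul_of_nonneg_left (max_le_max_right _
        (v3.trans (mul_le_mul_of_nonneg_left b2 (by linarith)))) (by linarith))
  rw [ENNReal.ofReal_add (by positivity) (by positivity), ENNReal.ofReal_add (by positivity)
    (by positivity)]
  refine (lintegral_mono_set (t := Vx P σ (1 / 2) ∪ _ ∪ _) fun y z => ?_).trans
    ((lintegral_union_le _ _ _).trans (add_le_add ((lintegral_union_le _ _ _).trans (add_le_add ?_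
      (win K cA isOpen_Iio (by positivity) (fun t z => b1 t (le_of_lt z.2)) (K.τ x₀))))
      (win K' cA isOpen_Ioi (by positivity) b3 (K'.τ x₀))))
  · by_contra n
    simp only [mem_union, not_or, mem_ofPred_eq, mem_inter_iff, d, d'] at n
    refine n.1.1 fun k o K₁ m => ?_
    rcases oth k o with rfl | rfl
    · cases hK.symm.trans m
      exact σi ▸ sd_t.2 ⟨b, hq, lt_of_not_ge fun r =>
        n.1.2 ⟨⟨by linarith, show _ < u by linarith⟩, z _ _ hK⟩⟩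
    · cases hK'.symm.trans m
      exact σj ▸ sd_f.2 ⟨a, hp', lt_of_not_ge fun r =>
        n.2 ⟨⟨by linarith, show v < _ by linarith⟩, z _ _ hK'⟩⟩
  · simp only [enorm_sq]
    exact (ofReal_integral_eq_lintegral_ofReal (((cA.norm.pow 2).continuousOn.integrableOn_compact
      (hT.vx X nc N e P hP σ _ ⟨by norm_num, by norm_num⟩).2.2.1).mono_set subset_closure)
        (.of_forall fun _ => sq_nonneg _)).ge.trans (ENNReal.ofReal_le_ofReal b2)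

end core

theorem up_uni (hN : UpStmt κ lam ν) {N : Type} [Finite N] {e : N → En3 κ lam ν}
    {u : ∀ i, (e i).Y.M → ℂ} (h : ∀ i, Kn (e i) (u i)) (C : ℝ) : ∀ᶠ M in atTop,
    ∀ᶠ η in 𝓝[>] (0 : ℝ), ∀ c ≥ M, ∀ K, ∀ᶠ w in 𝓝[>] (0 : ℝ), ∀ i S ψ, (lv (e i) c w S ψ).OK →
      ∀ p q (A : (lv (e i) c w S ψ).ZC), NS p q C η A → Sb A (Jv p q) K →
        (∀ t ∈ Jv p q, 0 < nm (sl A t)) → ∀ s ∈ Jd p q (1 / 4),
          Fw (e := e i) M A (Jd p q (1 / 4) ∩ Ici s) ∨ Up (e := e i) M A (Jd p q (1 / 4) ∩ Iic s) := by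
  have : ∀ i, ∀ᶠ M in atTop, ∀ᶠ η in 𝓝[>] (0 : ℝ), ∀ c ≥ M, ∀ K, ∀ᶠ w in 𝓝[>] (0 : ℝ), ∀ S ψ,
      (lv (e i) c w S ψ).OK → ∀ p q (A : (lv (e i) c w S ψ).ZC), NS p q C η A → Sb A (Jv p q) K →
        (∀ t ∈ Jv p q, 0 < nm (sl A t)) → ∀ s ∈ Jd p q (1 / 4),
          Fw (e := e i) M A (Jd p q (1 / 4) ∩ Ici s) ∨
            Up (e := e i) M A (Jd p q (1 / 4) ∩ Iic s) := fun i => by
    obtain ⟨M, -, η, h0, k⟩ := hN _ _ (h i) C
    filter_upwards [eventually_ge_atTop M] with M' a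
    exact ev_Ioc.2 ⟨η, h0, fun η' b c d K => (ev_Ioc.2 (k c (a.trans d) K)).mono
      fun w r S ψ o p q A h1 h2 h3 s hs => (r S ψ o p q A (h1.mono le_rfl b.2) h2 h3 s hs).imp
        (fun r => Fw.mono ⟨r.1, r.2, r.3⟩ a) fun r s y t z l => (r s y t z l).trans
          (mul_le_mul_of_nonneg_right a (by positivity))⟩
  filter_upwards [eventually_all.2 this] with M a
  filter_upwards [eventually_all.2 a] with η b c d K
  exact eventually_all.2 fun i => b i c d K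

variable {G : Gr κ lam ν} {mk : Mk κ lam ν} {ρ : Ty κ lam ν → ℚ} (H : LB κ lam ν) (m : Mks G mk ρ)
include H m

theorem uni_g {N : Type} [Fintype N] {ty : N → Ty κ lam ν} (h : ∀ i, (ty i).1.OK mk) :
    ∃ C : ℕ → ℝ, ∀ c ≥ 0, ∀ᶠ w in 𝓝[>] (0 : ℝ), ∀ i ε, ε = ty i → ∀ S ψ, (lv ε.en c w S ψ).OK →
      Bg.Bd (X := (lv ε.en c w S ψ).Z) (lv ε.en c w S ψ).cyl C ∧ (lv ε.en c w S ψ).Nb (C 0) := by
  choose B hB using fun i => Sw88.exists_bd (X := (ty i).en.Z) ((h i).ok (ty i).2).cyl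
  choose n hn using fun i => (H.nb _ ((h i).ok (ty i).2) (om_zero m (h i))).2
  refine ⟨fun j => max (∑ i, |B i j|) (∑ i, |n i|), fun c c0 =>
    ev_Ioc.2 ⟨1 / (9 * c ^ 2 + 1), by positivity, ?_⟩⟩
  rintro w ⟨p, hw⟩ i _ rfl S ψ o
  have := (le_div_iff₀ (by positivity)).1 hw
  exact ⟨Sw88.bd_mono (X := (ty i).en.Z) (hB i) (fun j => le_max_of_le_left (le_sum_abs (B · j) i)) _,
    Sw88.nb_mono ((hn i _ c0 w _ _ p o.S o.sψ o.mψ).2.2.1 (by nlinarith) (by nlinarith))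
      (le_max_of_le_right (le_sum_abs n i))⟩

/-- **RAD-SMALL** -/
theorem small (hB : Flo2.BndStmt G mk) (hU : UpStmt κ lam ν) (hS : SupStmt κ lam ν) :
    Rad94.SmallStmt mk := by
  intro g hg ι pr
  obtain ⟨E, hE⟩ := hB.en g.toBs
  replace hE := hE g rfl hg
  generalize E * (1 + max 0 (-(G.dg g : ℝ))) = E at hE
  obtain ⟨Cn, hn⟩ := uni_g H m (ty := g.ty) hg.2
  obtain ⟨C₁, hC⟩ := H.nsi fun j => max (Cn j) E
  obtain ⟨Kv, hv⟩ := H.c0v.vx g.N (fun i => (g.ty i).en) g.C 1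
  obtain ⟨C, c1, c2, c3, c4⟩ : ∃ C, C₁ ≤ C ∧ Kv ≤ C ∧ E ≤ C ∧ 1 ≤ C :=
    ((eventually_ge_atTop _).and ((eventually_ge_atTop _).and ((eventually_ge_atTop _).and
      (eventually_ge_atTop _)))).exists
  have kn := fun i => m.kn (ε := g.ty i) (hg.2 i)
  choose f f1 f2 using fun Λ M => ((neck_uni H.neck kn C Λ).and (eventually_ge_atTop M)).exists
  choose u hu using H.uc (Flo2.d0 fun i => (g.ty i).en) g.N id g.X g.nc g.k g.s g.𝓕 hg.1.fam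
    g.dom (fun t _ => Sw88.mem_Q hg.1 t) (Sw88.dom_eq pr.wl ▸ isCompact_Icc) C
  obtain ⟨M₀, ⟨m1, m2⟩, m0⟩ := (((neck_uni H.neck kn C 1).and (up_uni hU kn C)).and
    (eventually_ge_atTop 1)).exists
  refine ⟨f (u M₀) M₀ + 2, fun l l0 l1 𝓔 _ ty Sl _ p hty => ?_⟩
  obtain ⟨M₂, hM₂⟩ : ∃ M, M = f ((l false + 1) ^ 2 + 1) M₀ := ⟨_, rfl⟩
  obtain ⟨Λ₂, hΛ₂⟩ : ∃ M, M = max (u M₂) 1 := ⟨_, rfl⟩
  obtain ⟨η, ⟨e0, e1⟩, ⟨q0, q1⟩, q2, q3, q4⟩ := ((ev_Ioc.2 ⟨1, one_pos, fun _ => id⟩).and ((m1.and m2).and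
    ((f1 (u M₀) M₀).and ((hM₂ ▸ f1 ((l false + 1) ^ 2 + 1) M₀).and (f1 Λ₂ 1))))).exists
  obtain ⟨_, B, h1⟩ := bas H m hty Sl g.C E
  have a1 := f2 (u M₀) M₀
  have a2 : M₀ ≤ M₂ := hM₂ ▸ f2 _ _
  obtain ⟨μ₀, h⟩ := ((hE 𝓔 ty Sl p hty).and h1).and (ev_of (M := max (f (u M₀) M₀) (max M₂ (f Λ₂ 1)))
    fun c d => have d1 := le_of_max_le_left d; have d2 := le_of_max_le_right d
      (((q0 c (a1.trans d1) (B c)).and (q1 c (a1.trans d1) (B c))).and ((q2 c d1 (B c)).and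
        ((q3 c (le_of_max_le_left d2) (B c)).and (q4 c (le_of_max_le_right d2) (B c))))).and
          (hn c (by linarith)))
  refine ⟨max μ₀ 0, fun μ hμ => ?_⟩
  obtain ⟨w₀, w0, h⟩ := h μ (le_of_max_le_left hμ)
  obtain ⟨Kf, hK⟩ := hS (𝓔 × Sl) (fun j => (ty j.1).en) g.C (μ * 3) 1 (Λ₂ * (f Λ₂ 1 * M₀) +
    f Λ₂ 1 * M₀ * 8 + M₀ * max (Λ₂ * (Λ₂ * (f Λ₂ 1 * M₀))) 1 * 8)
  refine ⟨Kf, min (l false / 2) 1, by positivity, w₀, w0, ?_⟩
  rintro lv rfl hw Γ W yt τ hτ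
  obtain ⟨⟨⟨ηE, e2, hE⟩, h1⟩, ⟨⟨q0, q1⟩, q2, q3, q4⟩, hn⟩ := h lv rfl hw Γ
  refine Sw88.evQ_mono (Sw88.evQ_small p (lok mk) hg.1 Γ yt hτ
    (show 0 < min ηE (η / 2) by positivity)) ?_
  rintro q hq β hβ hl ⟨⟨t, A⟩, y⟩ ⟨hy, ht⟩
  have ok := (lev κ lam ν g hg.1 𝓔 ty Sl p lv W yt τ (fun ε => (Γ.ok ε).ok) Γ.w0 hτ).ok t trivial
  have o0 := (hg.1.fam.ok t (Sw88.mem_Q hg.1 t)).toOK
  have en := hE W yt τ hτ q (fun t => small_mono (hq t) (min_le_left _ _)) β hβ ⟨_, y⟩ ⟨hy, ht⟩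
  have sm := small_mono (hq t) (min_le_right _ _)
  have bd := Sw88.bd_mono (hg.1.bd t ht).1 (fun _ => le_rfl) lv.w
  have so := h1 W yt _ _ _ ok bd rfl _ (by linarith) q sm β A hy.1 en
  have ad : (g.P t).bg.Adm A := adm_re.1 hy.1.1.1.1
  have ol : ∀ i, (End23.lv (g.ty i).en lv.μ lv.w (lv.S (p.ι i).1) (lv.ψ (p.ι i).1)).OK := fun i =>
    (congrArg (fun ε : Ty κ lam ν => (End23.lv ε.en lv.μ lv.w (lv.S (p.ι i).1) (lv.ψ (p.ι i).1)).OK)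
      (p.ty i)).mp (Γ.ok _).ok
  have ns : ∀ i, ∀ K ∈ (g.P t).nk i, NS (e := End23.lv (g.ty i).en lv.μ lv.w (lv.S (p.ι i).1)
      (lv.ψ (p.ι i).1)) K.p K.q C η (K.pb A) := fun i K k =>
    have z := hn i _ (p.ty i) _ _ (Γ.ok (p.ι i).1).ok
    (rt_ns (p.ty i).symm K A (hC _ _ _ _ _ _ ok _ (by linarith) q sm A hy.1.1.1.1 hy.1.2.eq
      (en.trans (ENNReal.ofReal_le_ofReal (le_max_right _ _))) (p.ι i)
      (Sw88.bd_mono (X := (lv.e ty _).Z) z.1 (fun _ => le_max_left _ _) _)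
      (Sw88.nb_mono z.2 (le_max_left _ _)) _ (lk_mem p lv k))).mono c1 (by linarith)
  have ps : ∀ i, ∀ K ∈ (g.P t).nk i, ∀ s ∈ K.J, 0 < nm (sl (K.pb A) s) := fun i K k s b =>
    (so.pos _ _ (lk_mem p lv k) s ((lk_J p lv K).symm ▸ b)).trans_eq (rt_nm _ K A s)
  have sb : ∀ i (K : Nk (g.ty i).en (g.P t).bg), Sb (e := End23.lv (g.ty i).en lv.μ lv.w
      (lv.S (p.ι i).1) (lv.ψ (p.ι i).1)) (K.pb A) (Jv K.p K.q) (B lv.μ) := fun i K =>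
    sb_of Γ.w0.le (fun x => so.sup _) _
  have inf := fun i s => (Sw88.inf_P hg.1 t i s).trans (Sw88.inf_ι hg.1 pr i s)
  have asy : ∀ s, ∀ K ∈ (g.P t).nk (ι s), K.Inf s → Gd (β (p.ι (ι s)) s) ∧
      Tendsto (fun x => nm (sl (K.pb A) (pm s * x))) atTop (𝓝 (nm (β (p.ι (ι s)) s))) ∧ ∀ r,
        Tendsto (fun x => fq r (sl (K.pb A) (pm s * x))) atTop (𝓝 (fq r (β (p.ι (ι s)) s))) :=
    fun s K k b => by
      have d := (Γ.rs _).gd _ (hβ _ s ((Sw88.inf_ι hg.1 pr _ s).2 rfl))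
      have := so.asy _ _ (lk_mem p lv k) s ((lk_inf ..).2 b) d.crit
      exact ⟨d, this.1.congr fun x => rt_nm _ K A _, fun r => (this.2 r).congr
        fun x => rt_fq _ K A r _⟩
  have ne : ι false ≠ ι true := fun e => (hg.1.cyl _ pr.pin).1 (e ▸ pr.pout)
  obtain ⟨K, k, i⟩ := (inf _ false).2 rfl
  obtain ⟨K', k', i'⟩ := (inf _ true).2 rfl
  obtain ⟨b, hb⟩ := fin_t (K := K) fun z => ne ((inf _ _).1 ⟨K, k, z⟩)
  obtain ⟨a, ha⟩ := fin_f (K := K') fun z => ne ((inf _ _).1 ⟨K', k', z⟩).symm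
  have uc : ∀ M σ, (∀ i, Adj (g.P t) σ i → Gw (g.P t) M A i (σ i)) → ∀ i, Adj (g.P t) σ i →
      Gs (g.P t) (u M) (ms (g.P t) σ A.Φ) A i (σ i) := fun M σ => by
    have w1 : ({ (g.P t).bg with w := 1 } : Bg _ _ κ lam ν _) = (g.P t).bg := by
      rw [← show (g.P t).bg.w = 1 from K.hw]
    have s7 : Vx (g.P t) σ (7 / 8) ⊆ Vx (g.P t) σ 1 := fun x y j z K k =>
      sd_mono (by norm_num) (y j z K k)
    obtain ⟨a1, a2⟩ := loc ok hy.1.2.eq sm hy.1.1.1.1 (H.top.vx _ _ _ _ _ o0 σ 1 ⟨one_pos, le_rfl⟩).1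
      fun x y => (all_lev p lv (C := fun _ K => K.χ x = 0)).2 fun j K k => Cut71.χ_zero' _ (by
        rw [lk_tm, lk_deep]; exact vx_thin y j K k)
    have a3 : (g.P t).bg.Adm ⟨A.a, fun x => √lv.w • A.Φ x⟩ := w1 ▸ a1
    have a4 : ∀ x ∈ Vx (g.P t) σ 1, ((g.P t).bg.eD ⟨A.a, fun x => √lv.w • A.Φ x⟩ x = 0 ∧
        (g.P t).bg.eD A x = 0) ∧ ∀ w : List (Option κ), w.length ≤ 6 → ‖(g.P t).bg.F.Dw w
          ((g.P t).bg.eC ⟨A.a, fun x => √lv.w • A.Φ x⟩) x‖ ≤ η / 2 := fun x y =>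
      ⟨(a2 x y).1, fun w z => (congrArg (fun b : Bg _ _ κ lam ν _ => ‖(g.P t).bg.F.Dw w
        (b.eC ⟨A.a, fun x => √lv.w • A.Φ x⟩) x‖) w1).symm.trans_le ((a2 x y).2 w z)⟩
    refine hu M t ht σ ⟨A.a, fun x => √lv.w • A.Φ x⟩ A.Φ
      ⟨⟨fun j => (a3.sa j).contMDiffOn, a3.sΦ.contMDiffOn, fun j x _ => a3.pa j x, fun x _ => a3.pΦ x⟩,
        ⟨fun j => (ad.sa j).contMDiffOn, ad.sΦ.contMDiffOn, fun j x _ => ad.pa j x, fun x _ => ad.pΦ x⟩,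
        fun x y => (a4 x (s7 y)).1, fun w z x y => ((a4 x (s7 y)).2 w z).trans (by linarith),
        fun x y => (hv _ _ _ o0 (hg.1.bd t ht).1 K.hw σ _ a3 (fun x y => ⟨(a4 x y).1.1,
          ((a4 x y).2 [] (Nat.zero_le _)).trans (by linarith)⟩) x y).trans c2, ?_⟩
    refine le_trans ?_ ((le_self_add.trans en).trans (ENNReal.ofReal_le_ofReal c3))
    refine (lintegral_mono_set fun x y => ?_).trans (lintegral_mono fun x => ?_)
    · refine (lev_thick p lv 3).symm ▸ fun j K k z => vx_thin (s7 y) j K k ?_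
      exact Sw88.deep_near K ((Cut71.mem_img K fun _ => deep_J (by norm_num)).1 z) (by norm_num)
    · rw [← ofReal_norm, ← ENNReal.ofReal_pow (norm_nonneg _)]
      refine ENNReal.ofReal_le_ofReal (le_add_of_le_of_nonneg (le_add_of_nonneg_right ?_) ?_)
      · exact mul_nonneg Γ.w0.le (Finset.sum_nonneg fun _ _ => sq_nonneg _)
      · positivity
  refine hK lv.w Γ.w0 (fun _ => bm lv.μ) (fun j => lv.S j.1) (fun j => lv.ψ j.1) (fun _ r =>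
    mul_le_mul_of_nonneg_left (H.lvl.2.2.2.1 r).2 (le_of_max_le_right hμ)) _ _ _ ok.toOK bd rfl A
    hy.1.1.1.1 (fun x => ⟨(hy.1.2.eq x trivial).1, (so.eC x).trans (by linarith)⟩) fun x₀ =>
      (lintegral_mono_set fun x z i K k => ?_).trans (core H.top o0 ad k k' i hb ha i' (fun j o => ?_)
        m0 a1 a2 (f2 _ _) (hΛ₂ ▸ le_max_right _ _) (fun i K k => q1 i _ _ (ol i) _ _ _ (ns i K k) (sb i K)
          (ps i K k)) (fun T => ?_) (fun T => ?_) (fun σ => ⟨uc _ σ, fun z j y K k => ?_⟩)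
        (fun s y => (q2 _ _ _ (ol _) _ _ _ (ns _ K' k') (sb _ K') (ps _ K' k') s y).1)
        (fun s y => (q4 _ _ _ (ol _) _ _ _ (ns _ K k) (sb _ K) (ps _ K k) s y).2.1 0 le_rfl) x₀)
  · simpa only [Nd18.Nk.τ, lk_p, lk_q, lk_tm] using z _ _ (lk_mem p lv k)
  · by_contra! n
    obtain ⟨c, z⟩ := fn_wall hg.1 (t := t) ⟨o, fun K k s z => by
      cases s
      exacts [n.1 ((inf _ _).1 ⟨K, k, z⟩), n.2 ((inf _ _).1 ⟨K, k, z⟩)]⟩
    simp [pr.wl] at z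
  · obtain ⟨d, a1, a2⟩ := asy true K' k' i'
    obtain ⟨s, s1, s2, s3, -⟩ := asy_sl i' (n := fun x => nm (sl (K'.pb A) x))
      (f := fun x => fq _ (sl (K'.pb A) x)) (Λ := 1) a1 (a2 (bm lv.μ (nm (β (p.ι (ι true)) true))))
      (by rw [crit_fq d.crit, one_mul]
          exact (mul_eq_zero_of_left (pow_eq_zero_iff two_ne_zero |>.2 (sub_self _)) _).trans_lt (nm_pos d)) (nm_pos d) T
    exact ⟨s, s1, by simpa [pm] using s2, (q0 _ _ _ (ol _) _ _ _ (ns _ K' k') (sb _ K') (ps _ K' k')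
      s s1).2.1 _ ((Γ.ok (p.ι (ι true)).1).ok.b0 _) s3, _, by
        linarith [(abs_le.1 (hl true)).1, min_le_right (l false / 2) 1], s3.trans_eq (one_mul _)⟩
  · obtain ⟨d, a1, a2⟩ := asy false K k i
    have z := abs_le.1 (hl false)
    obtain ⟨s, s1, s2, s3, -⟩ := asy_sl i (n := fun _ => 1) (f := fun x => max (fq 0 (sl (K.pb A) x) -
      ((l false + 1) ^ 2 + 1) * nm (sl (K.pb A) x)) (nm (sl (K.pb A) x) - 1)) (Λ := 0) (a := 0)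
      tendsto_const_nhds (((a2 0).sub (a1.const_mul _)).max (a1.sub_const 1)) (by
        rw [zero_mul, max_lt_iff, sub_neg, sub_neg, crit_fq d.crit, sub_zero]
        refine ⟨mul_lt_mul_of_pos_right ((pow_le_pow_left₀ ((Γ.ok _).ok.b0 _) ?_ 2).trans_lt
          (lt_add_one _)) (nm_pos d), lt_of_not_ge fun y => ?_⟩
        · exact (sub_le_iff_le_add'.1 z.2).trans (add_le_add_right (min_le_right _ _) _)
        · rw [Sw88.bm_zero y] at z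
          linarith [min_le_left (l false / 2) 1]) one_pos (-T)
    rw [zero_mul, max_le_iff, sub_nonpos, sub_nonpos] at s3
    exact ⟨s, s1, by simpa [pm] using s2, (q3 _ _ _ (ol _) _ _ _ (ns _ K k) (sb _ K) (ps _ K k)
      s s1).1 s3.1, s3.2⟩
  · obtain ⟨s, s1, s2, s3, s4⟩ := uc _ σ z j y K k
    have z : u M₂ ≤ Λ₂ := hΛ₂ ▸ le_max_left _ _
    exact ⟨s, s1, s2.trans (mul_le_mul_of_nonneg_right z (nm_nonneg _)),
      s3.trans (mul_le_mul_of_nonneg_right z (nm_nonneg _)),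
      s4.trans (mul_le_mul_of_nonneg_right z (ms_nonneg _ _))⟩

end Crest.Agent.X212.Rtw9
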