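import Crest.Agent.X212.Gnk23.Fr
import Crest.Agent.X212.Gen6.T
import Crest.Agent.X212.Cyc79.Ef
import Crest.Agent.X212.Cyc79.Eg
import Crest.Agent.X212.Cyc79.Eh
import Crest.Agent.X212.Mcg32.Pp
import Crest.Agent.X212.Loc8.Cap
import Crest.Agent.X212.Tm38.Fm
import Crest.Agent.X212.Qd31.Main
import Crest.Agent.X212.Top0.EL
import Crest.Agent.X212.Ect9.Trf
import Crest.Agent.X212.Mcg32.Tree
import Crest.Agent.X212.Rtw9.Tw
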